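import Vale.Agent.P198V50.Defs
import Vale.Agent.P198.H3.Defs

/-!
# P198: quasisymmetry, Ahlfors regularity, Ahlfors regular conformal dimension
-/

namespace Vale.Agent.N198

open Set Metric MeasureTheory Vale.Agent.P198V
open scoped NNReal ENNReal

/-- the unit sphere of `ℝ³` with the Euclidean distance -/
abbrev S2 : Type := sphere (0 : EuclideanSpace ℝ (Fin 3)) 1

/-- the action is proper and cocompact -/
def Geometric {G : Type} [Group G] (ρ : G →* (P198H.H3 ≃ᵢ P198H.H3)) : Prop :=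
  (∀ K : Set P198H.H3, IsCompact K → {g : G | (ρ g '' K ∩ K).Nonempty}.Finite) ∧
    ∃ K : Set P198H.H3, IsCompact K ∧ ⋃ g : G, ρ g '' K = univ

/-- the identity map from `Z` with `d` to `Z` with `d'` is quasisymmetric -/
def Quasisymmetric {Z : Type} (d d' : Z → Z → ℝ) : Prop :=
  ∃ η : ℝ≥0 ≃ₜ ℝ≥0, ∀ (x y z : Z) (t : ℝ≥0), d x y ≤ t * d x z → d' x y ≤ η t * d' x z

/-- the `Q`-dimensional Hausdorff measure -/
noncomputable def haus (Z : Type) [MetricSpace Z] (Q : ℝ) (A : Set Z) : ℝ≥0∞ :=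
  @Measure.hausdorffMeasure Z _ (borel Z) (@BorelSpace.mk Z _ (borel Z) rfl) Q A

/-- the metric of `Z` is Ahlfors `Q`-regular -/
def AhlforsRegular (Z : Type) [MetricSpace Z] (Q : ℝ) : Prop :=
  ∃ C : ℝ, 1 ≤ C ∧ ∀ (x : Z) (r : ℝ), 0 < r → r ≤ diam (univ : Set Z) →
    ENNReal.ofReal (C⁻¹ * r ^ Q) ≤ haus Z Q (ball x r) ∧
      haus Z Q (ball x r) ≤ ENNReal.ofReal (C * r ^ Q)

/-- the Hausdorff dimensions of the Ahlfors regular metrics on the boundary that are
quasisymmetrically equivalent to a visual metric -/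
def regularDims {X : Type} [MetricSpace X] (o : X) : Set ℝ≥0∞ :=
  {q | ∃ (d : Bd o → Bd o → ℝ) (m : MetricSpace (Bd o)) (Q : ℝ), IsVisual d ∧
    Quasisymmetric d m.dist ∧ @AhlforsRegular (Bd o) m Q ∧
    q = @dimH (Bd o) (@MetricSpace.toEMetricSpace (Bd o) m) univ}

end Vale.Agent.N198
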