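import Vale.Agent.N198.QS
import Vale.Agent.P198V50.Top
import Vale.Agent.P198.H372.Moeb

/-!
# P198: the boundary is quasisymmetric to the round sphere
-/

namespace Vale.Agent.N198

open Set Metric Filter Topology Vale.Agent.P198V Vale.Agent.P198.H P198H
open scoped NNReal ENNReal

section visual

variable {X : Type} [MetricSpace X] {o : X} {d d₀ : Bd o → Bd o → ℝ}

theorem visual_pos (hd : IsVisual d) {ξ η : Bd o} (h : ξ ≠ η) : 0 < d ξ η := by
  obtain ⟨a, C, ha, hC, k⟩ := hd.cmp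
  have ha0 : 0 < a := by linarith
  have hC0 : 0 < C := by linarith
  exact lt_of_lt_of_le (by positivity) (k ξ η h).1

theorem visual_nonneg (hd : IsVisual d) (ξ η : Bd o) : 0 ≤ d ξ η := by
  by_cases h : ξ = η
  · rw [h, hd.self]
  · exact (visual_pos hd h).le

theorem visual_cmp (hd : IsVisual d) (hd₀ : IsVisual d₀) :
    ∃ K α : ℝ, 0 < K ∧ 0 < α ∧ ∀ (x y z : Bd o) (t : ℝ), 0 ≤ t → d x y ≤ t * d x z →
      d₀ x y ≤ K * t ^ α * d₀ x z := by
  obtain ⟨a, C, ha, hC, k⟩ := hd.cmp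
  obtain ⟨b, B, hb, hB, k₀⟩ := hd₀.cmp
  have ha0 : 0 < a := by linarith
  have hb0 : 0 < b := by linarith
  have hC0 : 0 < C := by linarith
  have hB0 : 0 < B := by linarith
  have hα : 0 < Real.logb a b := Real.logb_pos ha hb
  have hab : ∀ u : ℝ, b ^ u = (a ^ u) ^ Real.logb a b := by
    intro u
    rw [← Real.rpow_mul ha0.le, mul_comm, Real.rpow_mul ha0.le, Real.rpow_logb ha0 ha.ne' hb0]
  refine ⟨B ^ 2 * (C ^ 2) ^ Real.logb a b, Real.logb a b, by positivity, hα,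
    fun x y z t ht h => ?_⟩
  by_cases hxy : x = y
  · rw [hxy, hd₀.self]
    have := visual_nonneg hd₀ y z
    positivity
  have hxz : x ≠ z := by
    rintro rfl
    rw [hd.self, mul_zero] at h
    exact absurd h (not_le.2 (visual_pos hd hxy))
  have e1 := (k x y hxy).1
  have e2 := mul_le_mul_of_nonneg_left (k x z hxz).2 ht
  have e3 := (k₀ x y hxy).2
  have e4 := (k₀ x z hxz).1
  rw [hab] at e3 e4
  set u := a ^ (-(groB x y).toReal)
  set v := a ^ (-(groB x z).toReal) with hv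
  have hu0 : 0 ≤ u := by positivity
  have hv0 : 0 ≤ v := by positivity
  have e5 : u ≤ C ^ 2 * t * v := by
    rw [div_le_iff₀ hC0] at e1
    have := mul_le_mul_of_nonneg_right (h.trans e2) hC0.le
    linarith
  have e6 := Real.rpow_le_rpow hu0 e5 hα.le
  rw [Real.mul_rpow (by positivity) hv0, Real.mul_rpow (by positivity) ht] at e6
  rw [div_le_iff₀ hB0] at e4
  have e7 := mul_le_mul_of_nonneg_left e4
    (show 0 ≤ (C ^ 2) ^ Real.logb a b * t ^ Real.logb a b by positivity)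
  have e8 := mul_le_mul_of_nonneg_left (e6.trans e7) hB0.le
  linarith

end visual

theorem homeo_zero (η : ℝ≥0 ≃ₜ ℝ≥0) : η 0 = 0 := by
  rcases η.continuous.strictMono_of_inj η.injective with h | h
  · have := h.monotone (zero_le : 0 ≤ η.symm 0)
    rw [η.apply_symm_apply] at this
    exact le_antisymm this zero_le
  · have := h.antitone (zero_le : 0 ≤ η.symm (η 0 + 1))
    rw [η.apply_symm_apply] at this
    exact absurd this (not_le.2 (lt_add_one _))

theorem two_le_of_qs {Z : Type} (d : Z → Z → ℝ) [MetricSpace Z]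
    (hq : Quasisymmetric d dist) (hpos : ∀ x y, x ≠ y → 0 < d x y)
    (φ : unitInterval × unitInterval → Z) (hinj : Function.Injective φ)
    (hc : ∀ w, Tendsto (fun z => d (φ w) (φ z)) (𝓝 w) (𝓝 0)) : 2 ≤ dimH (univ : Set Z) := by
  refine two_le_dimH φ ?_ hinj
  obtain ⟨η, hη⟩ := hq
  rw [continuous_iff_continuousAt]
  intro w
  obtain ⟨w', hw'⟩ := exists_ne w
  have h0 : 0 < d (φ w) (φ w') := hpos _ _ (hinj.ne hw'.symm)
  rw [ContinuousAt, tendsto_iff_dist_tendsto_zero]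
  have h1 : Tendsto (fun z => (d (φ w) (φ z) / d (φ w) (φ w')).toNNReal) (𝓝 w) (𝓝 0) := by
    have := (continuous_real_toNNReal.tendsto _).comp ((hc w).div_const (d (φ w) (φ w')))
    rwa [zero_div, Real.toNNReal_zero] at this
  have h2 := ((NNReal.continuous_coe.tendsto _).comp
    ((η.continuous.tendsto 0).comp h1)).mul_const (dist (φ w) (φ w'))
  rw [homeo_zero, NNReal.coe_zero, zero_mul] at h2
  refine squeeze_zero (fun _ => dist_nonneg) (fun z => ?_) h2
  rw [dist_comm]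
  refine hη _ _ _ _ ?_
  rw [← div_le_iff₀ h0]
  exact Real.le_coe_toNNReal _

theorem exists_round {Z : Type} (f : Z ≃ S2) : ∃ m : MetricSpace Z,
    (m.dist = fun x y => dist (f x) (f y)) ∧ @AhlforsRegular Z m 2 ∧
      2 = @dimH Z (@MetricSpace.toEMetricSpace Z m) univ := by
  let m : MetricSpace Z := MetricSpace.induced f f.injective inferInstance
  let e : Z ≃ᵢ S2 := ⟨f, Isometry.of_dist_eq fun _ _ => rfl⟩
  exact ⟨m, rfl, regular_S2.of_iso e, by rw [e.dimH_univ, dimH_S2]⟩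

theorem exists_qs (G : Type) [Group G] (S : Finset G) (hS : Subgroup.closure (S : Set G) = ⊤)
    (δ : ℝ) (hδ : Slim (Cay hS) δ) (hb : Nonempty (Bd (vtx hS 1) ≃ₜ S2)) :
    ∃ f : Bd (vtx hS 1) ≃ₜ S2, ∀ d : Bd (vtx hS 1) → Bd (vtx hS 1) → ℝ, IsVisual d →
      Quasisymmetric d fun ξ η => dist (f ξ) (f η) := by
  obtain ⟨f₀⟩ := hb
  have t := thin_of_slim hδ
  set H := hypLen hS t with hHdef
  have hH : H.len = wlen S := rfl
  obtain ⟨e, he⟩ := exists_homeo (hS := hS) H hH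
  let f' : H.Bd ≃ₜ S2 := e.symm.trans f₀
  obtain ⟨y₁, y₂, hy⟩ := exists_ne_of_homeo f'
  let q : P198Q.QM G H.Bd := H.qm y₁ y₂ hy
  have hP : P198Q.Planar H.Bd := P198Q.planar_of_homeomorph f'
  have : Countable G := countable_of_gen hS
  have : ConnectedSpace S2 := P198GL.connectedSpace_sphere2
  have : ConnectedSpace H.Bd := f'.symm.surjective.connectedSpace f'.symm.continuous
  obtain ⟨h, hm⟩ := Vale.Agent.P198.H372.absStage2 G H.Bd q hP ⟨f'⟩
  obtain ⟨hbd, hsm⟩ := ratio_chi q h hm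
  refine ⟨e.trans (h.trans stereoH), fun d hd => ?_⟩
  have hv := visual (hS := hS) H hH
  rw [← he] at hv
  obtain ⟨K, α, hK, hα, hc⟩ := visual_cmp hd hv
  have hf : ∀ ξ η, dist ((e.trans (h.trans stereoH)) ξ) ((e.trans (h.trans stereoH)) η)
      = 2 * chi h (e ξ) (e η) := fun ξ η => dist_stereoH _ _
  refine exists_eta d _ (visual_nonneg hd) (fun _ _ => dist_nonneg) (fun x y hxy => ?_)
    (fun s => ?_) (fun ε hε => ?_)
  · have : x = y := by
      by_contra hne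
      exact absurd hxy (not_le.2 (visual_pos hd hne))
    rw [this, dist_self]
  · obtain ⟨T, hT⟩ := hbd (K * (max s 0) ^ α) (by positivity)
    refine ⟨T, fun x y z hxy => ?_⟩
    have := hT _ _ _ (hc x y z (max s 0) (le_max_right _ _) (hxy.trans
      (mul_le_mul_of_nonneg_right (le_max_left _ _) (visual_nonneg hd _ _))))
    rw [hf, hf]
    linarith
  · obtain ⟨τ, hτ, hT⟩ := hsm ε hε
    refine ⟨(τ / K) ^ α⁻¹, by positivity, fun x y z hxy => ?_⟩
    have h1 := hc x y z _ (by positivity) hxy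
    rw [Real.rpow_inv_rpow (by positivity) hα.ne', mul_div_cancel₀ τ hK.ne'] at h1
    have := hT _ _ _ h1
    rw [hf, hf]
    linarith

theorem final (G : Type) [Group G] (S : Finset G) (hS : Subgroup.closure (S : Set G) = ⊤)
    (δ : ℝ) (hδ : Slim (Cay hS) δ) (hb : Nonempty (Bd (vtx hS 1) ≃ₜ S2)) :
    (∃ ρ : G →* (H3 ≃ᵢ H3), Finite ρ.ker ∧
      (∀ K : Set H3, IsCompact K → {g : G | ((ρ g) '' K ∩ K).Nonempty}.Finite) ∧
      ∃ K : Set H3, IsCompact K ∧ ⋃ g : G, (ρ g) '' K = Set.univ) ∧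
    ((∃ d : Bd (vtx hS 1) → Bd (vtx hS 1) → ℝ, IsVisual d) ∧
      ∃ f : Bd (vtx hS 1) ≃ₜ S2, ∀ d : Bd (vtx hS 1) → Bd (vtx hS 1) → ℝ, IsVisual d →
        Quasisymmetric d fun ξ η => dist (f ξ) (f η)) ∧
    AhlforsRegular S2 2 ∧ IsLeast (regularDims (vtx hS 1)) 2 := by
  obtain ⟨-, -, -, -, ⟨d₀, hd₀⟩, hbasis, h1⟩ := Vale.Agent.P198V.final G S hS δ hδ
  obtain ⟨f, hf⟩ := exists_qs G S hS δ hδ hb
  refine ⟨h1 hb, ⟨⟨d₀, hd₀⟩, f, hf⟩, regular_S2, ?_, ?_⟩
  · obtain ⟨m, m1, m2, m3⟩ := exists_round f.toEquiv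
    exact ⟨d₀, m, 2, hd₀, m1 ▸ hf d₀ hd₀, m2, m3⟩
  · rintro _ ⟨d, m, Q, hd, hq, -, rfl⟩
    obtain ⟨φ, c1, c2⟩ := exists_square
    refine @two_le_of_qs _ d m hq (fun _ _ => visual_pos hd) (fun z => f.symm (φ z))
      (f.symm.injective.comp c2) fun w => ?_
    have c3 : Tendsto (fun z => f.symm (φ z)) (𝓝 w) (𝓝 (f.symm (φ w))) :=
      (f.symm.continuous.comp c1).tendsto w
    rw [(hbasis d hd _).tendsto_right_iff] at c3
    rw [Metric.tendsto_nhds]
    intro ε hε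
    filter_upwards [c3 ε hε] with z hz
    rwa [Real.dist_eq, sub_zero, abs_of_nonneg (visual_nonneg hd _ _)]

end Vale.Agent.N198
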