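import Mathlib
import Vale.Agent.P198.Hex.Miranda

/-!
# P198: a homeomorphism above a monotone function; the dimension of a metric square
-/

namespace Vale.Agent.N198

open Set Metric Filter Topology MeasureTheory
open scoped NNReal ENNReal

theorem exists_majorant (f : ℝ → ℝ) (hf : Monotone f) (h0 : ∀ t, 0 ≤ f t)
    (hs : ∀ ε : ℝ, 0 < ε → ∃ τ : ℝ, 0 < τ ∧ f τ ≤ ε) :
    ∃ η : ℝ≥0 ≃ₜ ℝ≥0, η 0 = 0 ∧ ∀ t : ℝ≥0, (t : ℝ) ≤ η t ∧ (0 < t → f t ≤ η t) := by
  set F : ℝ → ℝ := fun u => f (Real.exp u) with hF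
  have hFm : Monotone F := fun u v h => hf (Real.exp_le_exp.2 h)
  have hint : ∀ a b, IntervalIntegrable F volume a b := fun a b => hFm.intervalIntegrable
  set A : ℝ → ℝ := fun u => ∫ s in u..(u + 1), F s with hA
  have hAc : Continuous A := by
    have h1 := intervalIntegral.continuous_primitive hint 0
    have h2 : A = fun u => (∫ s in (0 : ℝ)..(u + 1), F s) - ∫ s in (0 : ℝ)..u, F s := by
      funext u
      rw [intervalIntegral.integral_interval_sub_left (hint _ _) (hint _ _)]
    rw [h2]
    exact (h1.comp (continuous_id.add continuous_const)).sub h1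
  have hA1 : ∀ u, A u = ∫ s in (0 : ℝ)..1, F (u + s) := by
    intro u
    rw [intervalIntegral.integral_comp_add_left F u, add_zero]
  have hint' : ∀ u, IntervalIntegrable (fun s => F (u + s)) volume 0 1 := fun u =>
    (show Monotone (fun s => F (u + s)) from
      fun a b h => hFm (by linarith)).intervalIntegrable
  have hAm : Monotone A := by
    intro u v h
    rw [hA1, hA1]
    exact intervalIntegral.integral_mono_on zero_le_one (hint' u) (hint' v)
      (fun s _ => hFm (by linarith))
  have hlo : ∀ u, F u ≤ A u := by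
    intro u
    rw [hA1]
    have := intervalIntegral.integral_mono_on (f := fun _ : ℝ => F u) zero_le_one
      intervalIntegrable_const (hint' u) (fun s hs => hFm (by linarith [hs.1]))
    simpa using this
  have hhi : ∀ u, A u ≤ F (u + 1) := by
    intro u
    rw [hA1]
    have := intervalIntegral.integral_mono_on (g := fun _ : ℝ => F (u + 1)) zero_le_one
      (hint' u) intervalIntegrable_const (fun s hs => hFm (by linarith [hs.2]))
    simpa using this
  have hA0 : ∀ u, 0 ≤ A u := fun u => (h0 _).trans (hlo u)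
  set B : ℝ≥0 → ℝ := fun t => if t = 0 then 0 else A (Real.log t) with hB
  have hB0 : ∀ t, 0 ≤ B t := by
    intro t
    rw [hB]
    dsimp only
    split_ifs
    exacts [le_rfl, hA0 _]
  have hBm : Monotone B := by
    intro s t h
    by_cases hs0 : s = 0
    · have : B s = 0 := if_pos hs0
      rw [this]
      exact hB0 t
    · have hs1 : 0 < s := pos_iff_ne_zero.2 hs0
      have ht0 : t ≠ 0 := (hs1.trans_le h).ne'
      rw [show B s = A (Real.log s) from if_neg hs0, show B t = A (Real.log t) from if_neg ht0]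
      exact hAm (Real.log_le_log (by exact_mod_cast hs1) (by exact_mod_cast h))
  have hBc : Continuous B := by
    rw [continuous_iff_continuousAt]
    intro t
    by_cases ht : t = 0
    · subst ht
      rw [ContinuousAt, show B 0 = 0 from if_pos rfl, Metric.tendsto_nhds]
      intro ε hε
      obtain ⟨τ, hτ, hτε⟩ := hs (ε / 2) (by positivity)
      have hpos : (0 : ℝ) < τ / Real.exp 1 := by positivity
      have h1 : ∀ᶠ s : ℝ≥0 in 𝓝 0, (s : ℝ) < τ / Real.exp 1 :=
        NNReal.continuous_coe.continuousAt.eventually_lt continuousAt_const (by simpa using hpos)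
      filter_upwards [h1] with s hs1
      rw [Real.dist_eq, sub_zero, abs_of_nonneg (hB0 s)]
      by_cases hs0 : s = 0
      · rw [show B s = 0 from if_pos hs0]; exact hε
      · have hs2 : (0 : ℝ) < s := by exact_mod_cast pos_iff_ne_zero.2 hs0
        rw [show B s = A (Real.log s) from if_neg hs0]
        have h2 : F (Real.log s + 1) ≤ f τ := by
          apply hf
          rw [Real.exp_add, Real.exp_log hs2]
          exact ((lt_div_iff₀ (Real.exp_pos 1)).1 hs1).le
        linarith [hhi (Real.log s)]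
    · have h1 : ContinuousAt (fun s : ℝ≥0 => A (Real.log s)) t :=
        hAc.continuousAt.comp (f := fun s : ℝ≥0 => Real.log s)
          ((Real.continuousAt_log (by exact_mod_cast ht)).comp (f := fun s : ℝ≥0 => (s : ℝ))
            NNReal.continuous_coe.continuousAt)
      refine h1.congr ?_
      filter_upwards [isOpen_ne.mem_nhds ht] with s hs0
      exact (if_neg hs0).symm
  set e : ℝ≥0 → ℝ≥0 := fun t => t + ⟨B t, hB0 t⟩ with he
  have hec : Continuous e := continuous_id.add (hBc.subtype_mk _)
  have hem : StrictMono e := fun s t h =>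
    add_lt_add_of_lt_of_le h (show (⟨B s, hB0 s⟩ : ℝ≥0) ≤ ⟨B t, hB0 t⟩ from hBm h.le)
  have he0 : e 0 = 0 := by
    apply NNReal.coe_injective
    change ((0 : ℝ≥0) : ℝ) + B 0 = ((0 : ℝ≥0) : ℝ)
    rw [show B 0 = 0 from if_pos rfl, add_zero]
  have hes : Function.Surjective e := by
    intro y
    refine intermediate_value_univ 0 y hec ⟨?_, ?_⟩
    · rw [he0]; exact zero_le
    · exact le_self_add
  refine ⟨(hem.orderIsoOfSurjective e hes).toHomeomorph, he0, fun t => ?_⟩
  have h1 : (((hem.orderIsoOfSurjective e hes).toHomeomorph t : ℝ≥0) : ℝ) = t + B t := rfl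
  rw [h1]
  refine ⟨by linarith [hB0 t], fun ht => ?_⟩
  have h2 : (0 : ℝ) < t := by exact_mod_cast ht
  rw [show B t = A (Real.log t) from if_neg ht.ne']
  have h3 := hlo (Real.log t)
  rw [hF] at h3
  simp only [Real.exp_log h2] at h3
  linarith

/-- From bounded and small distortion to a distortion function. -/
theorem exists_eta {Z : Type*} (d d' : Z → Z → ℝ) (hd0 : ∀ x y, 0 ≤ d x y)
    (hd' : ∀ x y, 0 ≤ d' x y) (hz : ∀ x y, d x y ≤ 0 → d' x y = 0)
    (hb : ∀ t : ℝ, ∃ T : ℝ, ∀ x y z, d x y ≤ t * d x z → d' x y ≤ T * d' x z)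
    (hs : ∀ ε : ℝ, 0 < ε → ∃ τ : ℝ, 0 < τ ∧ ∀ x y z, d x y ≤ τ * d x z → d' x y ≤ ε * d' x z) :
    ∃ η : ℝ≥0 ≃ₜ ℝ≥0, ∀ (x y z : Z) (t : ℝ≥0), d x y ≤ t * d x z → d' x y ≤ η t * d' x z := by
  set P : ℝ → Set ℝ := fun t => {T | 0 ≤ T ∧ ∀ x y z, d x y ≤ t * d x z → d' x y ≤ T * d' x z}
    with hP
  have hne : ∀ t, (P t).Nonempty := by
    intro t
    obtain ⟨T, hT⟩ := hb t
    exact ⟨max T 0, le_max_right _ _, fun x y z h =>
      (hT x y z h).trans (mul_le_mul_of_nonneg_right (le_max_left _ _) (hd' _ _))⟩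
  have hbd : ∀ t, BddBelow (P t) := fun t => ⟨0, fun T hT => hT.1⟩
  obtain ⟨η, h0, hη⟩ := exists_majorant (fun t => sInf (P t))
    (fun s t h => csInf_le_csInf (hbd s) (hne t) (fun T hT => ⟨hT.1, fun x y z h' =>
      hT.2 x y z (h'.trans (mul_le_mul_of_nonneg_right h (hd0 _ _)))⟩))
    (fun t => le_csInf (hne t) (fun T hT => hT.1))
    (fun ε hε => (hs ε hε).imp fun τ h => ⟨h.1, csInf_le (hbd τ) ⟨hε.le, h.2⟩⟩)
  refine ⟨η, fun x y z t h => ?_⟩
  rcases eq_or_lt_of_le (zero_le : (0 : ℝ≥0) ≤ t) with ht | ht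
  · subst ht
    rw [hz x y (by simpa using h), h0]
    simp
  · refine le_trans ?_ (mul_le_mul_of_nonneg_right ((hη t).2 ht) (hd' _ _))
    rcases (hd' x z).eq_or_lt with h1 | h1
    · obtain ⟨T, hT⟩ := hne t
      have := hT.2 x y z h
      rw [← h1] at this ⊢
      simpa using this
    · rw [← div_le_iff₀ h1]
      exact le_csInf (hne t) (fun T hT => (div_le_iff₀ h1).2 (hT.2 x y z h))

/-- A metric space that contains a topological square has Hausdorff dimension at least two. -/
theorem two_le_dimH {Y : Type*} [MetricSpace Y] (φ : unitInterval × unitInterval → Y)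
    (hφ : Continuous φ) (hinj : Function.Injective φ) : 2 ≤ dimH (univ : Set Y) := by
  set L : Set Y := range fun t => φ (0, t) with hL
  set B : Set Y := range fun s => φ (s, 0) with hB
  have hLc : IsClosed L := (isCompact_range (by fun_prop)).isClosed
  have hBc : IsClosed B := (isCompact_range (by fun_prop)).isClosed
  obtain ⟨a, ha, haL⟩ := isCompact_univ.exists_forall_le' (a := 0)
    (f := fun t : unitInterval => infDist (φ (1, t)) L)
    (((continuous_infDist_pt L).comp (by fun_prop)).continuousOn) (fun t _ => by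
      refine (hLc.notMem_iff_infDist_pos (range_nonempty _)).1 ?_
      rintro ⟨t', ht'⟩
      have := congrArg Prod.fst (hinj ht')
      simp at this)
  obtain ⟨b, hb, hbB⟩ := isCompact_univ.exists_forall_le' (a := 0)
    (f := fun s : unitInterval => infDist (φ (s, 1)) B)
    (((continuous_infDist_pt B).comp (by fun_prop)).continuousOn) (fun s _ => by
      refine (hBc.notMem_iff_infDist_pos (range_nonempty _)).1 ?_
      rintro ⟨s', hs'⟩
      have := congrArg Prod.snd (hinj hs')
      simp at this)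
  set F : Y → ℝ × ℝ := fun y => (infDist y L, infDist y B) with hF
  have hlip : LipschitzWith 1 F := by
    simpa using (lipschitz_infDist_pt L).prodMk (lipschitz_infDist_pt B)
  have hsub : Ioo 0 a ×ˢ Ioo 0 b ⊆ range F := by
    rintro ⟨u, v⟩ ⟨hu, hv⟩
    have c1 : Continuous fun z => infDist (φ z) L := (continuous_infDist_pt L).comp hφ
    have c2 : Continuous fun z => infDist (φ z) B := (continuous_infDist_pt B).comp hφ
    obtain ⟨z, hz⟩ := P198.PlanarTop.miranda
      ⟨fun z => ((u - infDist (φ z) L : ℝ) : ℂ) + ((v - infDist (φ z) B : ℝ) : ℂ) * Complex.I,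
        by fun_prop⟩
      (fun t => by
        have : infDist (φ (0, t)) L = 0 := infDist_zero_of_mem ⟨t, rfl⟩
        simpa [this] using hu.1.le)
      (fun t => by simpa using hu.2.le.trans (haL t (mem_univ _)))
      (fun s => by
        have : infDist (φ (s, 0)) B = 0 := infDist_zero_of_mem ⟨s, rfl⟩
        simpa [this] using hv.1.le)
      (fun s => by simpa using hv.2.le.trans (hbB s (mem_univ _)))
    have h1 := congrArg Complex.re hz
    have h2 := congrArg Complex.im hz
    simp at h1 h2
    exact ⟨φ z, Prod.ext (by simp only [hF]; linarith) (by simp only [hF]; linarith)⟩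
  have h1 : dimH (Ioo 0 a ×ˢ Ioo 0 b : Set (ℝ × ℝ)) = Module.finrank ℝ (ℝ × ℝ) := by
    apply Real.dimH_of_nonempty_interior
    rw [(isOpen_Ioo.prod isOpen_Ioo).interior_eq]
    exact (nonempty_Ioo.2 ha).prod (nonempty_Ioo.2 hb)
  have h2 : Module.finrank ℝ (ℝ × ℝ) = 2 := by simp
  rw [h2] at h1
  calc (2 : ℝ≥0∞) = dimH (Ioo 0 a ×ˢ Ioo 0 b : Set (ℝ × ℝ)) := by rw [h1]; norm_num
    _ ≤ dimH (range F) := dimH_mono hsub
    _ ≤ dimH (univ : Set Y) := hlip.dimH_range_le

end Vale.Agent.N198
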