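import Vale.Agent.N198.Sphere
import Vale.Agent.P198.H3.Geo3

/-!
# P198: a conjugation to Moebius maps is quasisymmetric
-/

namespace Vale.Agent.N198

open Set Metric Filter Topology OnePoint P198H P198H.H3
open scoped NNReal ENNReal ComplexConjugate

/-! ## The stereographic projection -/

theorem nb_sq (x : OnePoint ℂ) : (nb x).re ^ 2 + (nb x).im ^ 2 = n1 x * (1 - n1 x) := by
  have h := V_o_eq x x
  rw [V_self] at h
  simp only [Complex.mul_re, Complex.conj_re, Complex.conj_im] at h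
  linarith

noncomputable def stereo (x : OnePoint ℂ) : S2 :=
  ⟨!₂[2 * (nb x).re, 2 * (nb x).im, 1 - 2 * n1 x], by
    rw [mem_sphere_zero_iff_norm, ← sq_eq_sq₀ (norm_nonneg _) zero_le_one,
      EuclideanSpace.real_norm_sq_eq, Fin.sum_univ_three]
    simp only [Matrix.cons_val_zero, Matrix.cons_val_one, Matrix.cons_val]
    have := nb_sq x
    nlinarith⟩

theorem dist_stereo (x y : OnePoint ℂ) : dist (stereo x) (stereo y) = 2 * √(o.V x y) := by
  have h : dist (stereo x) (stereo y) ^ 2 = 4 * o.V x y := by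
    rw [Subtype.dist_eq, EuclideanSpace.dist_sq_eq, Fin.sum_univ_three, V_o_eq]
    simp only [stereo, Real.dist_eq, sq_abs, Matrix.cons_val_zero, Matrix.cons_val_one,
      Matrix.cons_val, Complex.mul_re, Complex.conj_re, Complex.conj_im]
    have h1 := nb_sq x
    have h2 := nb_sq y
    nlinarith
  have h4 : √(4 : ℝ) = 2 := by
    rw [show (4 : ℝ) = 2 ^ 2 by norm_num, Real.sqrt_sq (by norm_num)]
  rw [← Real.sqrt_sq (dist_nonneg (x := stereo x) (y := stereo y)), h,
    Real.sqrt_mul (by norm_num), h4]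

theorem continuous_stereo : Continuous stereo := by
  refine Continuous.subtype_mk ?_ _
  have h1 := continuous_n1
  have h2 := continuous_nb
  fun_prop

theorem stereo_bijective : Function.Bijective stereo := by
  constructor
  · intro x y h
    by_contra hne
    have h1 := dist_stereo x y
    rw [h, dist_self] at h1
    have h2 := Real.sqrt_pos.2 (V_o_pos hne)
    linarith
  · intro p
    have hp := sum_sq p
    rw [Fin.sum_univ_three] at hp
    by_cases hc : p.1 2 = 1
    · refine ⟨∞, Subtype.ext ?_⟩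
      have h1 : n1 ∞ = 0 := by simp [n1, vec_infty]
      have h2 : nb ∞ = 0 := by simp [nb, vec_infty]
      have h3 : p.1 0 = 0 := by rw [hc] at hp; nlinarith [sq_nonneg (p.1 0), sq_nonneg (p.1 1)]
      have h4 : p.1 1 = 0 := by rw [hc] at hp; nlinarith [sq_nonneg (p.1 0), sq_nonneg (p.1 1)]
      ext i
      fin_cases i <;> simp [stereo, h1, h2, h3, h4, hc]
    · have hc1 : 0 < 1 - p.1 2 := by
        have : p.1 2 ≤ 1 := by nlinarith [sq_nonneg (p.1 0), sq_nonneg (p.1 1)]
        exact sub_pos.2 (lt_of_le_of_ne this hc)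
      set z : ℂ := ⟨p.1 0 / (1 - p.1 2), p.1 1 / (1 - p.1 2)⟩ with hz
      have hn : ‖z‖ ^ 2 + 1 = 2 / (1 - p.1 2) := by
        rw [← Complex.normSq_eq_norm_sq, Complex.normSq_apply, hz]
        field_simp
        nlinarith
      have h1 : n1 (z : OnePoint ℂ) = (1 - p.1 2) / 2 := by
        have : n1 (z : OnePoint ℂ) = (‖z‖ ^ 2 + 1)⁻¹ := by simp [n1, vec_coe]
        rw [this, hn, inv_div]
      have h2 : nb (z : OnePoint ℂ) = z / ((2 / (1 - p.1 2) : ℝ) : ℂ) := by
        have : nb (z : OnePoint ℂ) = z / ((‖z‖ ^ 2 + 1 : ℝ) : ℂ) := by simp [nb, vec_coe]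
        rw [this, hn]
      have h3 : 2 * (nb (z : OnePoint ℂ)).re = p.1 0 := by
        rw [h2, Complex.div_ofReal_re, hz]
        field_simp
      have h4 : 2 * (nb (z : OnePoint ℂ)).im = p.1 1 := by
        rw [h2, Complex.div_ofReal_im, hz]
        field_simp
      have h5 : 1 - 2 * n1 (z : OnePoint ℂ) = p.1 2 := by rw [h1]; ring
      refine ⟨z, Subtype.ext ?_⟩
      ext i
      fin_cases i
      · exact h3
      · exact h4
      · exact h5

noncomputable def stereoH : OnePoint ℂ ≃ₜ S2 :=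
  continuous_stereo.homeoOfEquivCompactToT2 (f := Equiv.ofBijective _ stereo_bijective)

theorem dist_stereoH (x y : OnePoint ℂ) : dist (stereoH x) (stereoH y) = 2 * √(o.V x y) :=
  dist_stereo x y

/-! ## Cross-ratios -/

variable {G Z : Type*} [Group G] [MetricSpace Z] [CompactSpace Z] [MulAction G Z]

/-- half of the chordal distance of the images -/
noncomputable def chi (h : Z ≃ₜ OnePoint ℂ) (a b : Z) : ℝ := √(o.V (h a) (h b))

omit [CompactSpace Z] in
theorem chi_nonneg (h : Z ≃ₜ OnePoint ℂ) (a b : Z) : 0 ≤ chi h a b := Real.sqrt_nonneg _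

omit [CompactSpace Z] in
theorem chi_le_one (h : Z ≃ₜ OnePoint ℂ) (a b : Z) : chi h a b ≤ 1 :=
  Real.sqrt_le_one.2 (Vv_o_le_one (vec_ne _) (vec_ne _))

omit [CompactSpace Z] in
theorem chi_self (h : Z ≃ₜ OnePoint ℂ) (a : Z) : chi h a a = 0 := by
  rw [chi, V_self, Real.sqrt_zero]

theorem chi_ge (h : Z ≃ₜ OnePoint ℂ) {c : ℝ} (hc : 0 < c) :
    ∃ c' : ℝ, 0 < c' ∧ ∀ a b : Z, c ≤ dist a b → c' ≤ chi h a b := by
  obtain ⟨c', h1, h2⟩ := exists_V_ge h hc
  exact ⟨√c', Real.sqrt_pos.2 h1, fun a b hab => Real.sqrt_le_sqrt (h2 a b hab)⟩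

theorem chi_small (h : Z ≃ₜ OnePoint ℂ) {ε : ℝ} (hε : 0 < ε) :
    ∃ τ : ℝ, 0 < τ ∧ ∀ a b : Z, dist a b < τ → chi h a b ≤ ε := by
  obtain ⟨τ, h1, h2⟩ := exists_dist_ge h (c := ε ^ 2) (by positivity)
  refine ⟨τ, h1, fun a b hab => ?_⟩
  by_contra hcon
  exact absurd (h2 a b (Real.lt_sqrt hε.le |>.1 (not_le.1 hcon)).le) (not_le.2 hab)

omit [CompactSpace Z] in
theorem chi_smul (h : Z ≃ₜ OnePoint ℂ) {g : G} (hm : IsMoeb (fun x => h (g • h.symm x))) :
    ∃ l : Z → ℝ, (∀ a, 0 < l a) ∧ ∀ a b, chi h a b = chi h (g • a) (g • b) * (l a * l b) := by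
  obtain ⟨F, hF, -⟩ := hm.exists_ext
  have hpos : ∀ a : Z, 0 < o.Qf (vec (h (g • a))) / (F o).Qf (vec (h (g • a))) := fun a =>
    div_pos (o.Qf_pos (vec_ne _)) ((F o).Qf_pos (vec_ne _))
  refine ⟨fun a => √(o.Qf (vec (h (g • a))) / (F o).Qf (vec (h (g • a)))),
    fun a => Real.sqrt_pos.2 (hpos a), fun a b => ?_⟩
  have h1 := hF o (h a) (h b)
  simp only [h.symm_apply_apply] at h1
  rw [chi, ← h1, V, Vv_ratio _ (vec_ne _) (vec_ne _), chi, V, Real.sqrt_mul' _
    (mul_nonneg (hpos a).le (hpos b).le), Real.sqrt_mul (hpos a).le]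

omit [CompactSpace Z] in
theorem cross_smul (q : P198Q.QM G Z) (g : G) (x y z w : Z) {t : ℝ} (ht : 0 ≤ t)
    (h : dist x y * dist z w ≤ t * (dist x z * dist y w)) :
    dist (g • x) (g • y) * dist (g • z) (g • w)
      ≤ q.C ^ 4 * t * (dist (g • x) (g • z) * dist (g • y) (g • w)) := by
  have hs := q.s_pos g
  have hC : 0 < q.C := lt_of_lt_of_le one_pos q.one_le_C
  have u1 := q.q1_upper g x y
  have u2 := q.q1_upper g z w
  have l1 := q.q1_lower g x z
  have l2 := q.q1_lower g y w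
  set mx := max (q.s g) (dist x (q.ζ g))
  set my := max (q.s g) (dist y (q.ζ g))
  set mz := max (q.s g) (dist z (q.ζ g))
  set mw := max (q.s g) (dist w (q.ζ g))
  have px : 0 < mx := hs.trans_le (le_max_left _ _)
  have py : 0 < my := hs.trans_le (le_max_left _ _)
  have pz : 0 < mz := hs.trans_le (le_max_left _ _)
  have pw : 0 < mw := hs.trans_le (le_max_left _ _)
  have k1 := mul_le_mul u1 u2 (by positivity) (by positivity)
  have k2 := mul_le_mul l1 l2 (by positivity) (by positivity)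
  have k3 := mul_le_mul_of_nonneg_left h (show 0 ≤ q.C ^ 2 * q.s g ^ 2 by positivity)
  have k4 := mul_le_mul_of_nonneg_left k2 (show 0 ≤ q.C ^ 2 * t by positivity)
  refine le_of_mul_le_mul_right ?_ (show 0 < mx * my * mz * mw by positivity)
  calc _ = dist (g • x) (g • y) * (mx * my) * (dist (g • z) (g • w) * (mz * mw)) := by ring
    _ ≤ q.C * (q.s g * dist x y) * (q.C * (q.s g * dist z w)) := k1
    _ = q.C ^ 2 * q.s g ^ 2 * (dist x y * dist z w) := by ring
    _ ≤ q.C ^ 2 * q.s g ^ 2 * (t * (dist x z * dist y w)) := k3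
    _ = q.C ^ 2 * t * (q.s g * dist x z * (q.s g * dist y w)) := by ring
    _ ≤ _ := k4
    _ = _ := by ring

omit [CompactSpace Z] in
theorem normalize (q : P198Q.QM G Z) (h : Z ≃ₜ OnePoint ℂ)
    (hm : ∀ g : G, IsMoeb (fun x => h (g • h.symm x))) {D : ℝ} (hD1 : 1 ≤ D)
    (hD : ∀ x y : Z, dist x y ≤ D) :
    ∃ K δ : ℝ, 0 < K ∧ 0 < δ ∧ ∀ (x y z w : Z) (t : ℝ), y ≠ z → y ≠ w → z ≠ w → 0 ≤ t →
      dist x y * dist z w ≤ t * (dist x z * dist y w) →
      ∃ X Y Z' W : Z, δ ≤ dist Y Z' ∧ δ ≤ dist Y W ∧ dist X Y ≤ K * t * dist X Z' ∧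
        ∀ T : ℝ, chi h X Y * chi h Z' W ≤ T * (chi h X Z' * chi h Y W) →
          chi h x y * chi h z w ≤ T * (chi h x z * chi h y w) := by
  have hC : 0 < q.C := lt_of_lt_of_le one_pos q.one_le_C
  have hD0 : 0 < D := lt_of_lt_of_le one_pos hD1
  set δ : ℝ := 1 / (6 * q.C ^ 4 * D) with hδ
  have hδ0 : 0 < δ := by positivity
  refine ⟨q.C ^ 4 * D / δ, δ, by positivity, hδ0, fun x y z w t h1 h2 h3 ht hcr => ?_⟩
  obtain ⟨g, hg⟩ := exists_sep q hD1 hD ![y, z, w] (by
    intro i j hij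
    fin_cases i <;> fin_cases j <;>
      first
        | exact absurd rfl hij
        | assumption
        | exact h1.symm
        | exact h2.symm
        | exact h3.symm)
  have g1 : δ ≤ dist (g • y) (g • z) := hg 0 1 (by decide)
  have g2 : δ ≤ dist (g • y) (g • w) := hg 0 2 (by decide)
  have g3 : δ ≤ dist (g • z) (g • w) := hg 1 2 (by decide)
  refine ⟨g • x, g • y, g • z, g • w, g1, g2, ?_, fun T hT => ?_⟩
  · have k1 := cross_smul q g x y z w ht hcr
    have k2 := mul_le_mul_of_nonneg_left g3 (dist_nonneg (x := g • x) (y := g • y))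
    have k3 := mul_le_mul_of_nonneg_left (hD (g • y) (g • w))
      (show 0 ≤ q.C ^ 4 * t * dist (g • x) (g • z) by positivity)
    rw [show q.C ^ 4 * D / δ * t * dist (g • x) (g • z)
      = q.C ^ 4 * t * dist (g • x) (g • z) * D / δ by ring, le_div_iff₀ hδ0]
    nlinarith only [k1, k2, k3]
  · obtain ⟨l, hl, hl2⟩ := chi_smul h (hm g)
    have p1 := hl x
    have p2 := hl y
    have p3 := hl z
    have p4 := hl w
    have k := mul_le_mul_of_nonneg_right hT (show 0 ≤ l x * l y * l z * l w by positivity)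
    rw [hl2 x y, hl2 z w, hl2 x z, hl2 y w]
    calc _ = chi h (g • x) (g • y) * chi h (g • z) (g • w) * (l x * l y * l z * l w) := by ring
      _ ≤ _ := k
      _ = _ := by ring

/-- bounded and small distortion of cross-ratios -/
theorem cross_chi (q : P198Q.QM G Z) (h : Z ≃ₜ OnePoint ℂ)
    (hm : ∀ g : G, IsMoeb (fun x => h (g • h.symm x))) {D : ℝ} (hD1 : 1 ≤ D)
    (hD : ∀ x y : Z, dist x y ≤ D) :
    (∀ t : ℝ, 0 ≤ t → ∃ T : ℝ, 0 ≤ T ∧ ∀ x y z w : Z, y ≠ z → y ≠ w → z ≠ w →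
      dist x y * dist z w ≤ t * (dist x z * dist y w) →
      chi h x y * chi h z w ≤ T * (chi h x z * chi h y w)) ∧
    ∀ ε : ℝ, 0 < ε → ∃ τ : ℝ, 0 < τ ∧ ∀ x y z w : Z, y ≠ z → y ≠ w → z ≠ w →
      dist x y * dist z w ≤ τ * (dist x z * dist y w) →
      chi h x y * chi h z w ≤ ε * (chi h x z * chi h y w) := by
  obtain ⟨K, δ, hK, hδ, hn⟩ := normalize q h hm hD1 hD
  obtain ⟨c2, hc2, k2⟩ := chi_ge h hδ
  have hD0 : 0 < D := lt_of_lt_of_le one_pos hD1
  constructor
  · intro t ht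
    obtain ⟨c1, hc1, k1⟩ := chi_ge h (c := δ / (K * t + 1)) (by positivity)
    refine ⟨1 / (c1 * c2), by positivity, fun x y z w h1 h2 h3 hcr => ?_⟩
    obtain ⟨X, Y, Z', W, e1, e2, e3, e4⟩ := hn x y z w t h1 h2 h3 ht hcr
    apply e4
    have e5 : δ / (K * t + 1) ≤ dist X Z' := by
      rw [div_le_iff₀ (by positivity)]
      have := dist_triangle_left Y Z' X
      nlinarith only [e1, e3, this]
    have e6 := mul_le_mul (k1 _ _ e5) (k2 _ _ e2) hc2.le (chi_nonneg _ _ _)
    have e7 := mul_le_mul (chi_le_one h X Y) (chi_le_one h Z' W) (chi_nonneg _ _ _) zero_le_one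
    rw [one_div, inv_mul_eq_div, le_div_iff₀ (by positivity)]
    have e8 := mul_le_mul_of_nonneg_right e7 (show 0 ≤ c1 * c2 by positivity)
    linarith
  · intro ε hε
    obtain ⟨c1, hc1, k1⟩ := chi_ge h (c := δ / 2) (by positivity)
    obtain ⟨τ1, hτ1, k3⟩ := chi_small h (ε := ε * (c1 * c2)) (by positivity)
    refine ⟨min (1 / K) (τ1 / (2 * K * D)), by positivity, fun x y z w h1 h2 h3 hcr => ?_⟩
    set τ := min (1 / K) (τ1 / (2 * K * D)) with hτ
    have hτ0 : 0 < τ := by positivity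
    have f1 : K * τ ≤ 1 := by
      have := min_le_left (1 / K) (τ1 / (2 * K * D))
      rw [← hτ, le_div_iff₀ hK] at this
      linarith
    have f2 : K * τ * D < τ1 := by
      have := min_le_right (1 / K) (τ1 / (2 * K * D))
      rw [← hτ, le_div_iff₀ (by positivity)] at this
      nlinarith only [this, hτ1]
    obtain ⟨X, Y, Z', W, e1, e2, e3, e4⟩ := hn x y z w τ h1 h2 h3 hτ0.le hcr
    apply e4
    have e5 : δ / 2 ≤ dist X Z' := by
      have := dist_triangle_left Y Z' X
      have := mul_le_mul_of_nonneg_right f1 (dist_nonneg (x := X) (y := Z'))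
      linarith
    have e6 := mul_le_mul (k1 _ _ e5) (k2 _ _ e2) hc2.le (chi_nonneg _ _ _)
    have e7 : dist X Y < τ1 := by
      have := mul_le_mul_of_nonneg_left (hD X Z') (show 0 ≤ K * τ by positivity)
      linarith
    have e8 := mul_le_mul (k3 _ _ e7) (chi_le_one h Z' W) (chi_nonneg _ _ _) (by positivity)
    have e9 := mul_le_mul_of_nonneg_left e6 hε.le
    linarith

omit [CompactSpace Z] in
theorem exists_far (a : Fin 3 → Z) {δ : ℝ} (ha : ∀ i j, i ≠ j → δ ≤ dist (a i) (a j))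
    (y z : Z) : ∃ w, δ / 2 ≤ dist y w ∧ δ / 2 ≤ dist z w := by
  by_contra hcon
  push Not at hcon
  have key : ∀ (u : Z) i j, i ≠ j → dist u (a i) < δ / 2 → dist u (a j) < δ / 2 → False := by
    intro u i j hij h1 h2
    have := ha i j hij
    have := dist_triangle_left (a i) (a j) u
    linarith
  have alt : ∀ i, dist y (a i) < δ / 2 ∨ dist z (a i) < δ / 2 := fun i =>
    (lt_or_ge (dist y (a i)) (δ / 2)).imp_right (hcon _)
  rcases alt 0 with h0 | h0 <;> rcases alt 1 with h1 | h1 <;> rcases alt 2 with h2 | h2 <;>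
    first
      | exact key _ 0 1 (by decide) h0 h1
      | exact key _ 0 2 (by decide) h0 h2
      | exact key _ 1 2 (by decide) h1 h2

/-- bounded and small distortion of ratios of distances -/
theorem ratio_chi (q : P198Q.QM G Z) (h : Z ≃ₜ OnePoint ℂ)
    (hm : ∀ g : G, IsMoeb (fun x => h (g • h.symm x))) :
    (∀ t : ℝ, 0 ≤ t → ∃ T : ℝ, ∀ x y z : Z, dist x y ≤ t * dist x z →
      chi h x y ≤ T * chi h x z) ∧
    ∀ ε : ℝ, 0 < ε → ∃ τ : ℝ, 0 < τ ∧ ∀ x y z : Z, dist x y ≤ τ * dist x z →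
      chi h x y ≤ ε * chi h x z := by
  obtain ⟨D₀, hD₀⟩ := Metric.isBounded_iff.1 (isCompact_univ (X := Z)).isBounded
  set D : ℝ := max D₀ 1 with hDdef
  have hD1 : 1 ≤ D := le_max_right _ _
  have hD0 : 0 < D := lt_of_lt_of_le one_pos hD1
  have hD : ∀ x y : Z, dist x y ≤ D := fun x y =>
    (hD₀ (Set.mem_univ x) (Set.mem_univ y)).trans (le_max_left _ _)
  obtain ⟨δ, hδ, hδa⟩ := exists_dist_ge h (c := 1 / 4) (by norm_num)
  have hfar := exists_far (fun i => h.symm (tri o i)) (δ := δ) (fun i j hij => hδa _ _ (by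
    simpa only [h.apply_symm_apply] using tri_ge o i j hij))
  obtain ⟨c, hc, hcc⟩ := chi_ge h (c := δ / 2) (by positivity)
  obtain ⟨hb, hs⟩ := cross_chi q h hm hD1 hD
  have key : ∀ t T : ℝ, 0 ≤ t → 0 ≤ T → (∀ x y z w : Z, y ≠ z → y ≠ w → z ≠ w →
      dist x y * dist z w ≤ t * (2 * D / δ) * (dist x z * dist y w) →
      chi h x y * chi h z w ≤ T * (chi h x z * chi h y w)) →
      ∀ x y z : Z, y ≠ z → dist x y ≤ t * dist x z → chi h x y ≤ T / c * chi h x z := by
    intro t T ht hT hyp x y z hyz hxy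
    obtain ⟨w, w1, w2⟩ := hfar y z
    have n1 : y ≠ w := dist_pos.1 (lt_of_lt_of_le (by positivity) w1)
    have n2 : z ≠ w := dist_pos.1 (lt_of_lt_of_le (by positivity) w2)
    have k1 := hyp x y z w hyz n1 n2 (by
      have e1 := mul_le_mul hxy (hD z w) dist_nonneg (by positivity)
      have e2 : D ≤ 2 * D / δ * dist y w := by
        rw [div_mul_eq_mul_div, le_div_iff₀ hδ]
        nlinarith only [w1, hD0]
      have e3 := mul_le_mul_of_nonneg_left e2 (show 0 ≤ t * dist x z by positivity)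
      linarith)
    have k2 := mul_le_mul_of_nonneg_left (hcc z w w2) (chi_nonneg h x y)
    have k3 := mul_le_mul_of_nonneg_left (chi_le_one h y w)
      (mul_nonneg hT (chi_nonneg h x z))
    rw [div_mul_eq_mul_div, le_div_iff₀ hc]
    linarith
  constructor
  · intro t ht
    obtain ⟨T, hT0, hT⟩ := hb (t * (2 * D / δ)) (by positivity)
    refine ⟨max (T / c) 1, fun x y z hxy => ?_⟩
    by_cases hyz : y = z
    · subst hyz
      exact le_mul_of_one_le_left (chi_nonneg _ _ _) (le_max_right _ _)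
    · exact (key t T ht hT0 hT x y z hyz hxy).trans
        (mul_le_mul_of_nonneg_right (le_max_left _ _) (chi_nonneg _ _ _))
  · intro ε hε
    obtain ⟨τ, hτ0, hτ⟩ := hs (ε * c) (by positivity)
    refine ⟨min (τ / (2 * D / δ)) (1 / 2), by positivity, fun x y z hxy => ?_⟩
    by_cases hyz : y = z
    · subst hyz
      have e1 := mul_le_mul_of_nonneg_right (min_le_right (τ / (2 * D / δ)) (1 / 2))
        (dist_nonneg (x := x) (y := y))
      have e2 : x = y := dist_le_zero.1 (by linarith)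
      rw [e2, chi_self, mul_zero]
    · have e1 := mul_le_mul_of_nonneg_right (min_le_left (τ / (2 * D / δ)) (1 / 2))
        (dist_nonneg (x := x) (y := z))
      have e2 := key (τ / (2 * D / δ)) (ε * c) (by positivity) (by positivity) (by
        rw [div_mul_cancel₀ τ (by positivity)]
        exact hτ) x y z hyz (hxy.trans e1)
      rwa [mul_div_cancel_right₀ ε hc.ne'] at e2

end Vale.Agent.N198
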