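import Vale.Agent.N198.Defs
import Vale.Agent.N198.Major

/-!
# P198: the round sphere is Ahlfors 2-regular
-/

namespace Vale.Agent.N198

open Set Metric Filter Topology MeasureTheory
open scoped NNReal ENNReal

/-- the projection that forgets the coordinate `i` -/
def drop (i : Fin 3) (x : S2) : Fin 2 → ℝ := fun j => x.1 (i.succAbove j)

theorem sum_sq (x : S2) : ∑ k, x.1 k ^ 2 = 1 := by
  have h : ‖x.1‖ = 1 := by simp
  rw [← EuclideanSpace.real_norm_sq_eq, h]
  norm_num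

theorem sq_split (i : Fin 3) (x : S2) : x.1 i ^ 2 + (drop i x 0 ^ 2 + drop i x 1 ^ 2) = 1 := by
  have h := sum_sq x
  rw [Fin.sum_univ_succAbove _ i, Fin.sum_univ_two] at h
  exact h

theorem dist_sq_split (i : Fin 3) (x y : S2) : dist x y ^ 2 = (x.1 i - y.1 i) ^ 2 +
    ((drop i x 0 - drop i y 0) ^ 2 + (drop i x 1 - drop i y 1) ^ 2) := by
  rw [Subtype.dist_eq, EuclideanSpace.dist_sq_eq, Fin.sum_univ_succAbove _ i, Fin.sum_univ_two]
  simp only [Real.dist_eq, sq_abs, drop]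

theorem drop_lip (i : Fin 3) : LipschitzWith 1 (drop i) := by
  refine LipschitzWith.mk_one fun x y => ?_
  rw [dist_pi_le_iff dist_nonneg]
  intro j
  have h := dist_sq_split i x y
  rw [Real.dist_eq]
  apply abs_le_of_sq_le_sq' _ dist_nonneg |> abs_le.2
  fin_cases j
  · change (drop i x 0 - drop i y 0) ^ 2 ≤ _
    nlinarith [sq_nonneg (x.1 i - y.1 i), sq_nonneg (drop i x 1 - drop i y 1)]
  · change (drop i x 1 - drop i y 1) ^ 2 ≤ _
    nlinarith [sq_nonneg (x.1 i - y.1 i), sq_nonneg (drop i x 0 - drop i y 0)]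

theorem drop_anti (i : Fin 3) (σ : ℝ) (hσ : σ ^ 2 = 1) (x y : S2) (hx : 1 / 2 ≤ σ * x.1 i)
    (hy : 1 / 2 ≤ σ * y.1 i) : dist x y ≤ 5 * dist (drop i x) (drop i y) := by
  set D := dist (drop i x) (drop i y) with hD
  have hD0 : 0 ≤ D := dist_nonneg
  have h0 : |drop i x 0 - drop i y 0| ≤ D := dist_le_pi_dist (drop i x) (drop i y) 0
  have h1 : |drop i x 1 - drop i y 1| ≤ D := dist_le_pi_dist (drop i x) (drop i y) 1
  have ex := sq_split i x
  have ey := sq_split i y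
  have e := dist_sq_split i x y
  set a := x.1 i
  set b := y.1 i
  set u0 := drop i x 0
  set u1 := drop i x 1
  set v0 := drop i y 0
  set v1 := drop i y 1
  have k0 : |u0 + v0| ≤ 2 := by
    rw [abs_le]; constructor <;> nlinarith [sq_nonneg a, sq_nonneg b, sq_nonneg u1, sq_nonneg v1,
      sq_nonneg (u0 - 1), sq_nonneg (v0 - 1), sq_nonneg (u0 + 1), sq_nonneg (v0 + 1)]
  have k1 : |u1 + v1| ≤ 2 := by
    rw [abs_le]; constructor <;> nlinarith [sq_nonneg a, sq_nonneg b, sq_nonneg u0, sq_nonneg v0,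
      sq_nonneg (u1 - 1), sq_nonneg (v1 - 1), sq_nonneg (u1 + 1), sq_nonneg (v1 + 1)]
  have k2 : (σ * a - σ * b) * (σ * a + σ * b)
      = -((u0 - v0) * (u0 + v0) + (u1 - v1) * (u1 + v1)) := by
    have : (σ * a - σ * b) * (σ * a + σ * b) = σ ^ 2 * (a ^ 2 - b ^ 2) := by ring
    rw [this, hσ]
    linarith
  have k3 : |(u0 - v0) * (u0 + v0) + (u1 - v1) * (u1 + v1)| ≤ 4 * D := by
    refine (abs_add_le _ _).trans ?_
    rw [abs_mul, abs_mul]
    have := mul_le_mul h0 k0 (abs_nonneg _) hD0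
    have := mul_le_mul h1 k1 (abs_nonneg _) hD0
    linarith
  have k4 : |σ * a - σ * b| ≤ 4 * D := by
    have k5 : |σ * a - σ * b| * 1 ≤ |σ * a - σ * b| * |σ * a + σ * b| :=
      mul_le_mul_of_nonneg_left (le_trans (by linarith) (le_abs_self _)) (abs_nonneg _)
    rw [← abs_mul, k2, abs_neg] at k5
    linarith
  have k6 : (a - b) ^ 2 ≤ (4 * D) ^ 2 := by
    have : (a - b) ^ 2 = (σ * a - σ * b) ^ 2 := by
      rw [show (σ * a - σ * b) ^ 2 = σ ^ 2 * (a - b) ^ 2 by ring, hσ, one_mul]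
    rw [this]
    exact sq_le_sq' (abs_le.1 k4).1 (abs_le.1 k4).2
  have k7 : (u0 - v0) ^ 2 ≤ D ^ 2 := sq_le_sq' (abs_le.1 h0).1 (abs_le.1 h0).2
  have k8 : (u1 - v1) ^ 2 ≤ D ^ 2 := sq_le_sq' (abs_le.1 h1).1 (abs_le.1 h1).2
  refine (abs_le_of_sq_le_sq' ?_ (by positivity)).2
  nlinarith [sq_nonneg D]

theorem exists_big (x : S2) : ∃ (i : Fin 3) (σ : ℝ), (σ = 1 ∨ σ = -1) ∧ 0 ≤ σ * x.1 i ∧
    1 / 3 ≤ x.1 i ^ 2 := by
  have h := sum_sq x
  obtain ⟨i, hi⟩ : ∃ i, 1 / 3 ≤ x.1 i ^ 2 := by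
    by_contra hcon
    push Not at hcon
    rw [Fin.sum_univ_three] at h
    linarith [hcon 0, hcon 1, hcon 2]
  rcases le_total 0 (x.1 i) with h0 | h0
  · exact ⟨i, 1, Or.inl rfl, by linarith, hi⟩
  · exact ⟨i, -1, Or.inr rfl, by linarith, hi⟩

theorem half_le {σ a : ℝ} (hσ : σ ^ 2 = 1) (h0 : 0 ≤ σ * a) (h : 1 / 4 ≤ a ^ 2) :
    1 / 2 ≤ σ * a := by
  refine (abs_le_of_sq_le_sq' ?_ h0).2
  rw [mul_pow, hσ]
  linarith

theorem exists_lift (i : Fin 3) (σ : ℝ) (hσ : σ ^ 2 = 1) (u : Fin 2 → ℝ)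
    (hu : u 0 ^ 2 + u 1 ^ 2 ≤ 1) :
    ∃ y : S2, drop i y = u ∧ y.1 i = σ * √(1 - (u 0 ^ 2 + u 1 ^ 2)) := by
  set w : Fin 3 → ℝ := i.insertNth (σ * √(1 - (u 0 ^ 2 + u 1 ^ 2))) u with hw
  have h1 : w i = σ * √(1 - (u 0 ^ 2 + u 1 ^ 2)) := by rw [hw, Fin.insertNth_apply_same]
  have h2 : ∀ j, w (i.succAbove j) = u j := fun j => by rw [hw, Fin.insertNth_apply_succAbove]
  have h3 : ‖(WithLp.toLp 2 w : EuclideanSpace ℝ (Fin 3))‖ = 1 := by
    rw [← sq_eq_sq₀ (norm_nonneg _) zero_le_one, EuclideanSpace.real_norm_sq_eq,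
      Fin.sum_univ_succAbove _ i, Fin.sum_univ_two]
    simp only [h1, h2]
    rw [mul_pow, hσ, Real.sq_sqrt (by linarith)]
    ring
  exact ⟨⟨WithLp.toLp 2 w, by simpa using h3⟩, funext h2, h1⟩

theorem haus_plane (c : Fin 2 → ℝ) {r : ℝ} (hr : 0 < r) :
    (μH[2] : Measure (Fin 2 → ℝ)) (ball c r) = ENNReal.ofReal ((2 * r) ^ 2) := by
  have h := hausdorffMeasure_pi_real (ι := Fin 2)
  simp only [Fintype.card_fin, Nat.cast_ofNat] at h
  rw [h, Real.volume_pi_ball c hr]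
  simp

theorem haus_upper (x : S2) {r : ℝ} (hr : 0 < r) :
    (μH[2] : Measure S2) (ball x r) ≤ ENNReal.ofReal (600 * r ^ 2) := by
  have key : ∀ (i : Fin 3) (σ : ℝ), σ ^ 2 = 1 →
      (μH[2] : Measure S2) (ball x r ∩ {y | 1 / 2 ≤ σ * y.1 i})
        ≤ ENNReal.ofReal (100 * r ^ 2) := by
    intro i σ hσ
    set U : Set S2 := {y | 1 / 2 ≤ σ * y.1 i} with hU
    have ha : AntilipschitzWith 5 (fun y : U => drop i y.1) :=
      AntilipschitzWith.of_le_mul_dist fun y z => by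
        rw [NNReal.coe_ofNat]
        exact drop_anti i σ hσ y.1 z.1 y.2 z.2
    have h1 := ha.le_hausdorffMeasure_image (d := 2) zero_le_two
      ((Subtype.val : U → S2) ⁻¹' ball x r)
    have h2 := (isometry_subtype_coe (s := U)).hausdorffMeasure_image (d := 2)
      (Or.inl zero_le_two) ((Subtype.val : U → S2) ⁻¹' ball x r)
    rw [Subtype.image_preimage_coe, inter_comm] at h2
    have h3 : (fun y : U => drop i y.1) '' ((Subtype.val : U → S2) ⁻¹' ball x r)
        ⊆ ball (drop i x) r := by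
      rintro _ ⟨y, hy, rfl⟩
      have := (drop_lip i).dist_le_mul y.1 x
      rw [mem_ball]
      have hy' : dist y.1 x < r := hy
      simp only [NNReal.coe_one, one_mul] at this
      linarith
    rw [h2]
    refine h1.trans ((mul_le_mul_right (measure_mono h3) _).trans (le_of_eq ?_))
    rw [haus_plane _ hr, show (100 * r ^ 2) = 25 * (2 * r) ^ 2 by ring,
      ENNReal.ofReal_mul (by norm_num)]
    congr 1
    rw [show (2 : ℝ) = ((2 : ℕ) : ℝ) by norm_num, ENNReal.rpow_natCast]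
    norm_num
  have hcov : ball x r ⊆ ⋃ i : Fin 3, ((ball x r ∩ {y | 1 / 2 ≤ 1 * y.1 i}) ∪
      (ball x r ∩ {y | 1 / 2 ≤ (-1) * y.1 i})) := by
    intro y hy
    obtain ⟨i, σ, hσ, h0, h1⟩ := exists_big y
    refine mem_iUnion.2 ⟨i, ?_⟩
    rcases hσ with rfl | rfl
    · exact Or.inl ⟨hy, half_le (by norm_num) h0 (by linarith)⟩
    · exact Or.inr ⟨hy, half_le (by norm_num) h0 (by linarith)⟩
  refine (measure_mono hcov).trans ((measure_iUnion_fintype_le _ _).trans ?_)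
  have h2 : ∀ i : Fin 3, (μH[2] : Measure S2) ((ball x r ∩ {y | 1 / 2 ≤ 1 * y.1 i}) ∪
      (ball x r ∩ {y | 1 / 2 ≤ (-1) * y.1 i})) ≤ ENNReal.ofReal (200 * r ^ 2) := by
    intro i
    refine (measure_union_le _ _).trans ((add_le_add (key i 1 (by norm_num))
      (key i (-1) (by norm_num))).trans (le_of_eq ?_))
    rw [← ENNReal.ofReal_add (by positivity) (by positivity)]
    congr 1
    ring
  refine (Finset.sum_le_sum fun i _ => h2 i).trans (le_of_eq ?_)
  rw [Fin.sum_univ_three, ← ENNReal.ofReal_add (by positivity) (by positivity),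
    ← ENNReal.ofReal_add (by positivity) (by positivity)]
  congr 1
  ring

theorem haus_lower (x : S2) {r : ℝ} (hr : 0 < r) (hr2 : r ≤ 2) :
    ENNReal.ofReal (2500⁻¹ * r ^ 2) ≤ (μH[2] : Measure S2) (ball x r) := by
  obtain ⟨i, σ, hσ, h0, h1⟩ := exists_big x
  have hσ2 : σ ^ 2 = 1 := by rcases hσ with rfl | rfl <;> norm_num
  have hsub : ball (drop i x) (r / 100) ⊆ drop i '' ball x r := by
    intro u hu
    rw [mem_ball] at hu
    have e0 : |u 0 - drop i x 0| ≤ 1 / 50 :=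
      (dist_le_pi_dist u (drop i x) 0).trans (by linarith)
    have e1 : |u 1 - drop i x 1| ≤ 1 / 50 :=
      (dist_le_pi_dist u (drop i x) 1).trans (by linarith)
    have ex := sq_split i x
    rw [abs_le] at e0 e1
    have hu2 : u 0 ^ 2 + u 1 ^ 2 ≤ 3 / 4 := by
      set a := drop i x 0
      set b := drop i x 1
      have ka : a ≤ 1 ∧ -1 ≤ a := by constructor <;> nlinarith [sq_nonneg b]
      have kb : b ≤ 1 ∧ -1 ≤ b := by constructor <;> nlinarith [sq_nonneg a]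
      have k0 : u 0 ^ 2 ≤ a ^ 2 + 1 / 24 := by
        have : u 0 ^ 2 - a ^ 2 = (u 0 - a) * (u 0 + a) := by ring
        nlinarith [e0.1, e0.2, ka.1, ka.2]
      have k1 : u 1 ^ 2 ≤ b ^ 2 + 1 / 24 := by
        have : u 1 ^ 2 - b ^ 2 = (u 1 - b) * (u 1 + b) := by ring
        nlinarith [e1.1, e1.2, kb.1, kb.2]
      linarith
    obtain ⟨y, hy1, hy2⟩ := exists_lift i σ hσ2 u (by linarith)
    refine ⟨y, ?_, hy1⟩
    have hy3 : 1 / 2 ≤ σ * y.1 i := by
      rw [hy2, ← mul_assoc, ← sq, hσ2, one_mul]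
      exact Real.le_sqrt_of_sq_le (by linarith)
    have := drop_anti i σ hσ2 y x hy3 (half_le hσ2 h0 (by linarith))
    rw [hy1] at this
    rw [mem_ball]
    linarith
  have h2 := (drop_lip i).hausdorffMeasure_image_le (d := 2) zero_le_two (ball x r)
  simp only [ENNReal.coe_one, ENNReal.one_rpow, one_mul] at h2
  refine le_trans (le_of_eq ?_) ((measure_mono hsub).trans h2)
  rw [haus_plane _ (by positivity)]
  congr 1
  ring

theorem haus_eq (Z : Type) [MetricSpace Z] [MeasurableSpace Z] [BorelSpace Z] (Q : ℝ)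
    (A : Set Z) : haus Z Q A = (μH[Q] : Measure Z) A := by
  have h := BorelSpace.measurable_eq (α := Z)
  subst h
  rfl

theorem diam_S2 : diam (univ : Set S2) ≤ 2 := by
  refine diam_le_of_forall_dist_le (by norm_num) fun x _ y _ => ?_
  have hx : ‖x.1‖ = 1 := by simp
  have hy : ‖y.1‖ = 1 := by simp
  rw [Subtype.dist_eq, dist_eq_norm]
  linarith [norm_sub_le x.1 y.1]

theorem regular_S2 : AhlforsRegular S2 2 := by
  refine ⟨2500, by norm_num, fun x r hr hr2 => ?_⟩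
  rw [haus_eq, Real.rpow_two]
  refine ⟨haus_lower x hr (hr2.trans diam_S2), (haus_upper x hr).trans ?_⟩
  exact ENNReal.ofReal_le_ofReal (by nlinarith [sq_nonneg r])

theorem AhlforsRegular.of_iso {Y Z : Type} [MetricSpace Y] [MetricSpace Z] (e : Y ≃ᵢ Z) {Q : ℝ}
    (h : AhlforsRegular Z Q) : AhlforsRegular Y Q := by
  obtain ⟨C, hC, h⟩ := h
  refine ⟨C, hC, fun x r hr hr2 => ?_⟩
  borelize Y Z
  have h1 := h (e x) r hr (by rwa [← e.diam_univ])
  rw [haus_eq, ← e.image_ball, e.hausdorffMeasure_image] at h1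
  rwa [haus_eq]

theorem exists_square : ∃ φ : unitInterval × unitInterval → S2,
    Continuous φ ∧ Function.Injective φ := by
  have hu : ∀ z : unitInterval × unitInterval,
      (![(z.1 : ℝ) / 2, (z.2 : ℝ) / 2] : Fin 2 → ℝ) 0 ^ 2
        + (![(z.1 : ℝ) / 2, (z.2 : ℝ) / 2] : Fin 2 → ℝ) 1 ^ 2 ≤ 3 / 4 := by
    intro z
    have a1 := z.1.2.1
    have a2 := z.1.2.2
    have b1 := z.2.2.1
    have b2 := z.2.2.2
    simp only [Matrix.cons_val_zero, Matrix.cons_val_one]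
    nlinarith
  choose φ h1 h2 using fun z : unitInterval × unitInterval =>
    exists_lift 0 1 (by norm_num) ![(z.1 : ℝ) / 2, (z.2 : ℝ) / 2] ((hu z).trans (by norm_num))
  have h3 : ∀ z, 1 / 2 ≤ 1 * (φ z).1 0 := by
    intro z
    rw [h2, one_mul, one_mul]
    exact Real.le_sqrt_of_sq_le (by linarith [hu z])
  have hc : Continuous fun z : unitInterval × unitInterval =>
      (![(z.1 : ℝ) / 2, (z.2 : ℝ) / 2] : Fin 2 → ℝ) := by fun_prop
  refine ⟨φ, ?_, fun z w h => ?_⟩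
  · rw [continuous_iff_continuousAt]
    intro w
    rw [ContinuousAt, tendsto_iff_dist_tendsto_zero]
    have h4 := ((hc.dist (continuous_const (y := (![(w.1 : ℝ) / 2, (w.2 : ℝ) / 2] :
      Fin 2 → ℝ)))).tendsto w).const_mul 5
    rw [dist_self, mul_zero] at h4
    refine squeeze_zero (fun _ => dist_nonneg) (fun z => ?_) h4
    have := drop_anti 0 1 (by norm_num) (φ z) (φ w) (h3 z) (h3 w)
    rwa [h1, h1] at this
  · have h4 := h1 z
    rw [h, h1 w] at h4
    have e0 := congrFun h4 0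
    have e1 := congrFun h4 1
    simp only [Matrix.cons_val_zero, Matrix.cons_val_one] at e0 e1
    exact Prod.ext (Subtype.ext (by linarith)) (Subtype.ext (by linarith))

theorem dimH_S2 : dimH (univ : Set S2) = 2 := by
  obtain ⟨φ, h1, h2⟩ := exists_square
  refine le_antisymm ?_ (two_le_dimH φ h1 h2)
  have h3 : (univ : Set S2) = ball (φ (0, 0)) 3 := by
    symm
    rw [eq_univ_iff_forall]
    intro y
    have := dist_le_diam_of_mem (isCompact_univ (X := S2)).isBounded (mem_univ y)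
      (mem_univ (φ (0, 0)))
    rw [mem_ball]
    linarith [diam_S2]
  have h4 := haus_upper (φ (0, 0)) (r := 3) (by norm_num)
  rw [← h3] at h4
  exact dimH_le_of_hausdorffMeasure_ne_top (d := 2) (ne_top_of_le_ne_top ENNReal.ofReal_ne_top h4)

end Vale.Agent.N198
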